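import Vale.Agent.P158.Stmt
import Mathlib.MeasureTheory.Measure.ProbabilityMeasure
import Mathlib.Probability.ProductMeasure

/-! Definitions used in the statement: environments and two events. -/

namespace Vale.Agent.P158.H648

open MeasureTheory Filter Topology

/-- Real weights on all edges. -/
abbrev Weights : Type := latt.edgeSet → ℝ

/-- The law of independent weights, where the edge `e` has a weight of law `H e`. -/
noncomputable def indepLaw (H : latt.edgeSet → ProbabilityMeasure ℝ) : Measure Weights :=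
  Measure.infinitePi fun e => (H e : Measure ℝ)

/-- The event that some `z ∈ K` and some `x, y` outside the box `{-N,…,N}²` satisfy
`T(x,z) + T(z,y) < T(x,y) + C`. -/
def nearGeodesic (K : Finset V) (C : ℝ) (N : ℕ) : Set Weights :=
  {s | ∃ z ∈ K, ∃ x y : V, ¬ (|x.1| ≤ N ∧ |x.2| ≤ N) ∧ ¬ (|y.1| ≤ N ∧ |y.2| ≤ N) ∧
    passageTime s x z + passageTime s z y < passageTime s x y + C}

/-- There is a continuous function `f` with values in `[0,1]` of the weights of finitely many edges
`e 0, …, e (m-1)` which equals `1` for all nonnegative weights in the event `nearGeodesic K C N`,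
and whose mean is less than `ε` for independent weights of law `G`. -/
def LocalBound (G : ProbabilityMeasure ℝ) (K : Finset V) (C ε : ℝ) : Prop :=
  ∃ (N m : ℕ) (e : Fin m → latt.edgeSet) (f : (Fin m → ℝ) → ℝ), Continuous f ∧
    (∀ r, 0 ≤ f r ∧ f r ≤ 1) ∧
    (∀ s : Weights, (∀ e, 0 ≤ s e) → s ∈ nearGeodesic K C N → f (fun i => s (e i)) = 1) ∧
    ∫ s, f (fun i => s (e i)) ∂(indepLaw fun _ => G) < ε

/-- The finite-dimensional laws of `μ k` converge weakly, as `k → ∞`, to those of independent
weights of law `G`. -/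
def ConvergesTo (μ : ℕ → Measure Weights) (G : ProbabilityMeasure ℝ) : Prop :=
  ∀ (m : ℕ) (e : Fin m → latt.edgeSet) (f : (Fin m → ℝ) → ℝ), Continuous f →
    (∃ B, ∀ r, |f r| ≤ B) → Tendsto (fun k => ∫ s, f (fun i => s (e i)) ∂(μ k)) atTop
      (𝓝 (∫ s, f (fun i => s (e i)) ∂(indepLaw fun _ => G)))

/-- For every finite `K`, the probability that a bigeodesic visits `K` tends to zero. -/
def BigeodesicsVanish (μ : ℕ → Measure Weights) : Prop :=
  ∀ K : Finset V, Tendsto (fun k => μ k {s | ∃ v : ℤ → V, IsBigeodesic s v ∧ ∃ i, v i ∈ K})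
    atTop (𝓝 0)

end Vale.Agent.P158.H648
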