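import Vale.Agent.P158.H219.Excess

/-! The local event that controls geodesics through a finite set (helper648). -/

namespace Vale.Agent.P158.H648

open SimpleGraph Filter MeasureTheory Vale.Agent.P158.H219 Vale.Agent.P158.T1

variable {s t : latt.edgeSet → ℝ} {x y z : V}

theorem wW_append (p : latt.Walk x y) (q : latt.Walk y z) :
    walkWeight s (p.append q) = walkWeight s p + walkWeight s q := by
  unfold walkWeight
  rw [Walk.darts_append, List.map_append, List.sum_append]

theorem wW_reverse (p : latt.Walk x y) : walkWeight s p.reverse = walkWeight s p := by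
  unfold walkWeight
  rw [Walk.darts_reverse, List.map_reverse, List.sum_reverse, List.map_map]
  congr 1
  refine List.map_congr_left fun d _ => ?_
  simp only [Function.comp]
  congr 1
  exact Subtype.ext d.edge_symm

theorem wW_cons (h : latt.Adj x y) (p : latt.Walk y z) :
    walkWeight s (Walk.cons h p) = s ⟨s(x, y), h⟩ + walkWeight s p := by
  unfold walkWeight
  rw [Walk.darts_cons, List.map_cons, List.sum_cons]
  rfl

theorem wW_bypass (hs : ∀ e, 0 ≤ s e) (p : latt.Walk x y) :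
    walkWeight s p.bypass ≤ walkWeight s p := by
  induction p with
  | nil => exact le_rfl
  | @cons u v w h p ih =>
    rw [wW_cons, Walk.bypass]
    split_ifs with hc
    · have h1 : walkWeight s (p.bypass.takeUntil u hc) + walkWeight s (p.bypass.dropUntil u hc) =
          walkWeight s p.bypass := by
        rw [← wW_append, Walk.take_spec]
      have h2 := walkWeight_nonneg hs (p.bypass.takeUntil u hc)
      have h3 := hs ⟨s(u, v), h⟩
      linarith
    · rw [wW_cons]
      linarith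

theorem wW_path {p : latt.Walk x y} (hp : p.IsPath) : walkWeight s p = ∑ e ∈ pe p, s e := by
  rw [← ww_wt, Pe.ww_eq_sum hp]

/-- The first exit from a box. -/
theorem first_exit {N : ℕ} (p : latt.Walk z x) (hz : z ∈ box N) (hx : x ∉ box N) :
    ∃ (x' : V) (p1 : latt.Walk z x') (p2 : latt.Walk x' x), x' ∉ box N ∧
      (∀ u ∈ p1.support, u ∈ box (N + 1)) ∧ p1.append p2 = p := by
  induction p with
  | nil => exact absurd hz hx
  | @cons u v w h p ih =>
    have hu1 : u ∈ box (N + 1) := by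
      rw [box_eq] at hz ⊢
      exact bx_mono (Nat.le_succ N) hz
    have hv1 : v ∈ box (N + 1) := by
      rw [box_eq] at hz ⊢
      exact bx_adj h hz
    by_cases hv : v ∈ box N
    · obtain ⟨x', p1, p2, h1, h2, h3⟩ := ih hv hx
      refine ⟨x', Walk.cons h p1, p2, h1, ?_, ?_⟩
      · intro a ha
        rw [Walk.support_cons, List.mem_cons] at ha
        rcases ha with rfl | ha
        · exact hu1
        · exact h2 a ha
      · rw [Walk.cons_append, h3]
    · refine ⟨v, Walk.cons h Walk.nil, p, hv, ?_, ?_⟩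
      · intro a ha
        simp only [Walk.support_cons, Walk.support_nil, List.mem_cons, List.not_mem_nil,
          or_false] at ha
        rcases ha with rfl | rfl
        · exact hu1
        · exact hv1
      · rw [Walk.cons_append, Walk.nil_append]

/-- The event in the box `box (N + 1)` which controls near-geodesics through `K`. -/
def locEv (K : Finset V) (C : ℝ) (N : ℕ) : Set (latt.edgeSet → ℝ) :=
  {s | ∃ (z : V) (x : V) (y : V) (π : latt.Walk x z) (ρ : latt.Walk z y), z ∈ K ∧ x ∉ box N ∧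
    y ∉ box N ∧ π.IsPath ∧ ρ.IsPath ∧ (∀ u ∈ π.support, u ∈ box (N + 1)) ∧
    (∀ u ∈ ρ.support, u ∈ box (N + 1)) ∧ ∀ q : latt.Walk x y, (∀ u ∈ q.support, u ∈ box (N + 1)) →
      walkWeight s π + walkWeight s ρ ≤ walkWeight s q + C}

/-- The global event. -/
def bigEv (K : Finset V) (C : ℝ) (N : ℕ) : Set (latt.edgeSet → ℝ) :=
  {s | ∃ z ∈ K, ∃ x y : V, x ∉ box N ∧ y ∉ box N ∧
    passageTime s x z + passageTime s z y < passageTime s x y + C}

theorem passageTime_le (hs : ∀ e, 0 ≤ s e) (p : latt.Walk x y) :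
    passageTime s x y ≤ walkWeight s p := by
  refine ciInf_le ⟨0, ?_⟩ p
  rintro _ ⟨q, rfl⟩
  exact walkWeight_nonneg hs q

theorem bigEv_subset (hs : ∀ e, 0 ≤ s e) {K : Finset V} {C : ℝ} {N : ℕ} (hK : ∀ z ∈ K, z ∈ box N)
    (h : s ∈ bigEv K C N) : s ∈ locEv K C N := by
  classical
  obtain ⟨z, hz, x, y, hx, hy, hxy⟩ := h
  have hne : ∀ a b : V, Nonempty (latt.Walk a b) := fun a b =>
    let ⟨p, _⟩ := conn_univ a b
    ⟨p⟩
  have := hne x z
  have := hne z y
  have h1 : passageTime s x z < passageTime s x y + C - passageTime s z y := by linarith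
  obtain ⟨a, ha⟩ := exists_lt_of_ciInf_lt h1
  have h2 : passageTime s z y < passageTime s x y + C - walkWeight s a := by linarith
  obtain ⟨b, hb⟩ := exists_lt_of_ciInf_lt h2
  obtain ⟨x', a1, a2, hx', ha1, ha2⟩ := first_exit a.reverse (hK z hz) hx
  obtain ⟨y', b1, b2, hy', hb1, hb2⟩ := first_exit b (hK z hz) hy
  refine ⟨z, x', y', a1.reverse.bypass, b1.bypass, hz, hx', hy', Walk.bypass_isPath _,
    Walk.bypass_isPath _, ?_, ?_, ?_⟩
  · intro u hu
    have h3 := Walk.support_bypass_subset_support _ hu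
    rw [Walk.support_reverse, List.mem_reverse] at h3
    exact ha1 u h3
  · intro u hu
    exact hb1 u (Walk.support_bypass_subset_support _ hu)
  · intro q _
    have e1 : walkWeight s a = walkWeight s a1 + walkWeight s a2 := by
      rw [← wW_reverse a, ← ha2, wW_append]
    have e2 : walkWeight s b = walkWeight s b1 + walkWeight s b2 := by
      rw [← hb2, wW_append]
    have e3 := passageTime_le hs (a2.reverse.append (q.append b2))
    rw [wW_append, wW_append, wW_reverse] at e3
    have e4 := wW_bypass hs a1.reverse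
    rw [wW_reverse] at e4
    have e5 := wW_bypass hs b1
    linarith

/-- Divergence of the excess excludes the local events of large boxes. -/
theorem notMem_locEv (hex : ∀ (K : Finset V) (C : ℝ), ∃ N : ℕ, ∀ S : Set V, box N ⊆ S →
      ∀ x y : V, x ∉ box N → y ∉ box N → ∀ p : latt.Walk x y, (∀ z ∈ p.support, z ∈ S) →
      (∃ z ∈ p.support, z ∈ K) →
        ∃ q : latt.Walk x y, (∀ z ∈ q.support, z ∈ S) ∧
          walkWeight t q + C ≤ walkWeight t p) (K : Finset V) (C : ℝ) :
    ∀ᶠ N : ℕ in atTop, t ∉ locEv K C N := by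
  obtain ⟨N₀, hN₀⟩ := hex K (C + 1)
  filter_upwards [eventually_ge_atTop N₀] with N hN hcon
  have hsub : ∀ M, N₀ ≤ M → box N₀ ⊆ box M := fun M hM => by
    rw [box_eq, box_eq]; exact bx_mono hM
  obtain ⟨z, x, y, π, ρ, hz, hx, hy, -, -, hπ, hρ, hq⟩ := hcon
  obtain ⟨q, h1, h2⟩ := hN₀ (box (N + 1)) (hsub _ (by omega)) x y
    (fun h => hx (hsub N hN h)) (fun h => hy (hsub N hN h)) (π.append ρ) (by
      intro u hu
      rw [Walk.mem_support_append_iff] at hu
      rcases hu with hu | hu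
      · exact hπ u hu
      · exact hρ u hu) ⟨z, by rw [Walk.mem_support_append_iff]; simp, hz⟩
  have h3 := hq q h1
  rw [wW_append] at h2
  linarith

/-- The edges of a box. -/
noncomputable def bE (N : ℕ) : Finset latt.edgeSet :=
  (edges_finite (bx_finite 0 (N + 1))).toFinset

theorem mem_bE {N : ℕ} {e : latt.edgeSet} : e ∈ bE N ↔ ∀ u ∈ e.1, u ∈ box (N + 1) := by
  unfold bE
  rw [Set.Finite.mem_toFinset, box_eq]
  rfl

theorem dart_mem_bE {N : ℕ} {p : latt.Walk x y} (hp : ∀ u ∈ p.support, u ∈ box (N + 1))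
    {d : latt.Dart} (hd : d ∈ p.darts) : dE d ∈ bE N := by
  rw [mem_bE]
  intro u hu
  have hu' : u ∈ d.edge := hu
  rw [Dart.edge, Sym2.mem_iff] at hu'
  rcases hu' with rfl | rfl
  · exact hp _ (Walk.dart_fst_mem_support_of_mem_darts _ hd)
  · exact hp _ (Walk.dart_snd_mem_support_of_mem_darts _ hd)

theorem wW_congr {N : ℕ} {p : latt.Walk x y} (hp : ∀ u ∈ p.support, u ∈ box (N + 1))
    (h : ∀ e ∈ bE N, s e = t e) : walkWeight s p = walkWeight t p := by
  unfold walkWeight
  congr 1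
  refine List.map_congr_left fun d hd => ?_
  exact h _ (dart_mem_bE hp hd)

theorem locEv_congr {K : Finset V} {C : ℝ} {N : ℕ} (h : ∀ e ∈ bE N, s e = t e)
    (hs : s ∈ locEv K C N) : t ∈ locEv K C N := by
  obtain ⟨z, x, y, π, ρ, hz, hx, hy, h1, h2, hπ, hρ, hq⟩ := hs
  refine ⟨z, x, y, π, ρ, hz, hx, hy, h1, h2, hπ, hρ, fun q hq' => ?_⟩
  rw [← wW_congr hπ h, ← wW_congr hρ h, ← wW_congr hq' h]
  exact hq q hq'

theorem continuous_wW (p : latt.Walk x y) :
    Continuous fun s : latt.edgeSet → ℝ => walkWeight s p := by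
  unfold walkWeight
  induction p.darts with
  | nil => simpa using continuous_const
  | cons d l ih =>
    simp only [List.map_cons, List.sum_cons]
    exact (continuous_apply _).add ih

theorem support_mem_box {N : ℕ} {p : latt.Walk x y} (hp : ∀ u ∈ p.support, u ∈ box (N + 1)) :
    pe p ⊆ bE N := by
  intro e he
  obtain ⟨d, hd, rfl⟩ := mem_pe.1 he
  exact dart_mem_bE hp hd

/-- The local event is closed. -/
theorem isClosed_locEv (K : Finset V) (C : ℝ) (N : ℕ) : IsClosed (locEv K C N) := by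
  classical
  -- index set
  let B : Finset V := (bx_finite 0 (N + 1)).toFinset
  have hB : ∀ u, u ∈ B ↔ u ∈ box (N + 1) := fun u => by
    rw [Set.Finite.mem_toFinset, box_eq]
  let I : Finset ((V × V × V) × (Finset latt.edgeSet × Finset latt.edgeSet)) :=
    (K ×ˢ B ×ˢ B) ×ˢ ((bE N).powerset ×ˢ (bE N).powerset)
  let M : (V × V × V) × (Finset latt.edgeSet × Finset latt.edgeSet) → Set (latt.edgeSet → ℝ) :=
    fun i => {s | (∃ (π : latt.Walk i.1.2.1 i.1.1) (ρ : latt.Walk i.1.1 i.1.2.2),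
      i.1.1 ∈ K ∧ i.1.2.1 ∉ box N ∧ i.1.2.2 ∉ box N ∧ π.IsPath ∧ ρ.IsPath ∧
      (∀ u ∈ π.support, u ∈ box (N + 1)) ∧ (∀ u ∈ ρ.support, u ∈ box (N + 1)) ∧
      pe π = i.2.1 ∧ pe ρ = i.2.2) ∧
      ∀ q : latt.Walk i.1.2.1 i.1.2.2, (∀ u ∈ q.support, u ∈ box (N + 1)) →
        ∑ e ∈ i.2.1, s e + ∑ e ∈ i.2.2, s e ≤ walkWeight s q + C}
  have hM : locEv K C N = ⋃ i ∈ I, M i := by
    ext s
    simp only [Set.mem_iUnion]
    constructor
    · rintro ⟨z, x, y, π, ρ, hz, hx, hy, h1, h2, hπ, hρ, hq⟩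
      refine ⟨((z, x, y), (pe π, pe ρ)), ?_, ⟨π, ρ, hz, hx, hy, h1, h2, hπ, hρ, rfl, rfl⟩, ?_⟩
      · simp only [I, Finset.mem_product, Finset.mem_powerset]
        exact ⟨⟨hz, (hB _).2 (hπ _ π.start_mem_support), (hB _).2 (hρ _ ρ.end_mem_support)⟩,
          support_mem_box hπ, support_mem_box hρ⟩
      · intro q hq'
        have := hq q hq'
        rwa [wW_path h1, wW_path h2] at this
    · rintro ⟨⟨⟨z, x, y⟩, ⟨A, A'⟩⟩, -, ⟨π, ρ, hz, hx, hy, h1, h2, hπ, hρ, h3, h4⟩, hq⟩
      refine ⟨z, x, y, π, ρ, hz, hx, hy, h1, h2, hπ, hρ, fun q hq' => ?_⟩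
      rw [wW_path h1, wW_path h2, h3, h4]
      exact hq q hq'
  rw [hM]
  refine isClosed_biUnion_finset fun i _ => ?_
  have e : {s : latt.edgeSet → ℝ | ∀ q : latt.Walk i.1.2.1 i.1.2.2,
      (∀ u ∈ q.support, u ∈ box (N + 1)) →
        ∑ e ∈ i.2.1, s e + ∑ e ∈ i.2.2, s e ≤ walkWeight s q + C} =
      ⋂ (q : latt.Walk i.1.2.1 i.1.2.2), ⋂ (_ : ∀ u ∈ q.support, u ∈ box (N + 1)),
        {s | ∑ e ∈ i.2.1, s e + ∑ e ∈ i.2.2, s e ≤ walkWeight s q + C} := by
    ext s
    simp only [Set.mem_ofPred_eq, Set.mem_iInter]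
  have hc : IsClosed {s : latt.edgeSet → ℝ | ∀ q : latt.Walk i.1.2.1 i.1.2.2,
      (∀ u ∈ q.support, u ∈ box (N + 1)) →
        ∑ e ∈ i.2.1, s e + ∑ e ∈ i.2.2, s e ≤ walkWeight s q + C} := by
    rw [e]
    refine isClosed_iInter fun q => isClosed_iInter fun hq => ?_
    refine isClosed_le ?_ ((continuous_wW q).add continuous_const)
    exact (continuous_finsetSum _ fun e _ => continuous_apply e).add
      (continuous_finsetSum _ fun e _ => continuous_apply e)
  exact IsClosed.inter isClosed_const hc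

/-- A bigeodesic through `K` gives a pair of distant points with zero excess. -/
theorem bi_bigEv {K : Finset V} {v : ℤ → V} (hv : IsBigeodesic s v) {i : ℤ} (hi : v i ∈ K)
    (N : ℕ) : s ∈ bigEv K 1 N := by
  have hfin : {i : ℤ | v i ∈ box N}.Finite := by
    have h1 : (box N).Finite := by rw [box_eq]; exact bx_finite 0 N
    exact h1.preimage hv.injective.injOn
  obtain ⟨a, ha0, ha⟩ := (Set.Iio_infinite i).exists_notMem_finite hfin
  obtain ⟨b, hb0, hb⟩ := (Set.Ioi_infinite i).exists_notMem_finite hfin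
  have ha0' : a < i := ha0
  have hb0' : i < b := hb0
  refine ⟨v i, hi, v a, v b, ha, hb, ?_⟩
  rw [← hv.geodesic a i ha0', ← hv.geodesic i b hb0', ← hv.geodesic a b (ha0'.trans hb0')]
  have h1 : Finset.Ico a b = Finset.Ico a i ∪ Finset.Ico i b :=
    (Finset.Ico_union_Ico_eq_Ico ha0'.le hb0'.le).symm
  rw [h1, Finset.sum_union (Finset.Ico_disjoint_Ico_consecutive a i b)]
  linarith

end Vale.Agent.P158.H648
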