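import Vale.Agent.P158.H648.Det
import Vale.Agent.P158.H648.Defs
import Mathlib.MeasureTheory.Measure.FiniteMeasurePi
import Mathlib.MeasureTheory.Measure.HasOuterApproxClosed
import Mathlib.MeasureTheory.Integral.Indicator

/-! Stability in law of the absence of bigeodesics (helper648). -/

namespace Vale.Agent.P158.H648

open SimpleGraph Filter MeasureTheory Vale.Agent.P158.H219 Vale.Agent.P158.T1
open scoped Topology ENNReal

theorem prob_locEv {G : Measure ℝ} [IsProbabilityMeasure G] (hG : G (Set.Iio 0) = 0)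
    (hatom : ∀ x, G {x} = 0) (K : Finset V) (C : ℝ) :
    Tendsto (fun N : ℕ => PG G (locEv K C N)) atTop (𝓝 0) := by
  have : NullSingletonClass G := ⟨hatom⟩
  have h := ae_excess (G := G) hG
  have h1 : ∀ᵐ t ∂PG G, ∀ᶠ N in (atTop : Filter ℕ), (t ∈ locEv K C N ↔ t ∈ (∅ : Set Env)) := by
    filter_upwards [h] with t ht
    filter_upwards [notMem_locEv ht.2 K C] with N hN
    simp [hN]
  have h2 := tendsto_measure_of_ae_tendsto_indicator_of_isFiniteMeasure (atTop : Filter ℕ)
    MeasurableSet.empty (fun N => (isClosed_locEv K C N).measurableSet) h1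
  rwa [measure_empty] at h2

/-- extension by zero -/
noncomputable def ext0 (F : Finset latt.edgeSet) (r : Fin F.card → ℝ) : latt.edgeSet → ℝ :=
  open Classical in fun e => if h : e ∈ F then r (F.equivFin ⟨e, h⟩) else 0

/-- The edges of `F`, numbered. -/
noncomputable def eF (F : Finset latt.edgeSet) (i : Fin F.card) : latt.edgeSet :=
  (F.equivFin.symm i).1

theorem ext0_restrict {F : Finset latt.edgeSet} (s : latt.edgeSet → ℝ) {e : latt.edgeSet}
    (h : e ∈ F) : ext0 F (fun i => s (eF F i)) e = s e := by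
  unfold ext0 eF
  rw [dif_pos h]
  show s ((F.equivFin.symm (F.equivFin ⟨e, h⟩)).1) = s e
  rw [Equiv.symm_apply_apply]

theorem continuous_ext0 (F : Finset latt.edgeSet) : Continuous (ext0 F) := by
  refine continuous_pi fun e => ?_
  by_cases h : e ∈ F
  · have : (fun r : Fin F.card → ℝ => ext0 F r e) = fun r => r (F.equivFin ⟨e, h⟩) := by
      funext r
      unfold ext0
      rw [dif_pos h]
    rw [this]
    exact continuous_apply _
  · have : (fun r : Fin F.card → ℝ => ext0 F r e) = fun _ => 0 := by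
      funext r
      unfold ext0
      rw [dif_neg h]
    rw [this]
    exact continuous_const

/-- The local event in terms of the weights of the box. -/
def locF (K : Finset V) (C : ℝ) (N : ℕ) : Set (Fin (bE N).card → ℝ) :=
  ext0 (bE N) ⁻¹' locEv K C N

theorem isClosed_locF (K : Finset V) (C : ℝ) (N : ℕ) : IsClosed (locF K C N) :=
  (isClosed_locEv K C N).preimage (continuous_ext0 _)

theorem mem_locF {K : Finset V} {C : ℝ} {N : ℕ} {s : latt.edgeSet → ℝ} :
    (fun i => s (eF (bE N) i)) ∈ locF K C N ↔ s ∈ locEv K C N :=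
  ⟨fun hs => locEv_congr (fun _ he => ext0_restrict s he) hs,
    fun hs => locEv_congr (fun _ he => (ext0_restrict s he).symm) hs⟩

theorem measurable_coord {m : ℕ} (e : Fin m → latt.edgeSet) :
    Measurable fun (s : Weights) (i : Fin m) => s (e i) :=
  measurable_pi_lambda _ fun _ => measurable_pi_apply _

theorem continuous_coord {m : ℕ} (e : Fin m → latt.edgeSet) :
    Continuous fun (s : Weights) (i : Fin m) => s (e i) :=
  continuous_pi fun _ => continuous_apply _

variable {G : ProbabilityMeasure ℝ}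

instance (H : latt.edgeSet → ProbabilityMeasure ℝ) : IsProbabilityMeasure (indepLaw H) := by
  unfold indepLaw; infer_instance

/-- **Local continuous bound.** -/
theorem localBound (hG : (G : Measure ℝ) (Set.Iio 0) = 0) (hatom : ∀ x, (G : Measure ℝ) {x} = 0)
    (K : Finset V) (C ε : ℝ) (hε : 0 < ε) : LocalBound G K C ε := by
  have hε' : 0 < ENNReal.ofReal ε := ENNReal.ofReal_pos.2 hε
  obtain ⟨N₀, hN₀⟩ := exists_box K
  obtain ⟨N, hN1, hN2⟩ := (((prob_locEv hG hatom K C).eventually_lt_const hε').and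
    (eventually_ge_atTop N₀)).exists
  have hK : ∀ z ∈ K, z ∈ box N := fun z hz => by
    have := hN₀ z hz
    rw [box_eq] at this ⊢
    exact bx_mono hN2 this
  set m := (bE N).card with hm
  set ν : Measure (Fin m → ℝ) := (indepLaw fun _ => G).map fun s i => s (eF (bE N) i) with hν
  have : IsProbabilityMeasure ν :=
    Measure.isProbabilityMeasure_map (measurable_coord _).aemeasurable
  have hνL : ν.real (locF K C N) < ε := by
    have h1 : ν (locF K C N) = PG (G : Measure ℝ) (locEv K C N) := by
      rw [hν, Measure.map_apply (measurable_coord _) (isClosed_locF K C N).measurableSet]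
      have h2 : (fun (s : Weights) (i : Fin m) => s (eF (bE N) i)) ⁻¹' locF K C N =
          locEv K C N := by
        ext s
        exact mem_locF
      rw [h2]
      rfl
    rw [Measure.real_def, h1]
    exact (ENNReal.lt_ofReal_iff_toReal_lt (measure_ne_top _ _)).1 hN1
  have ht := tendsto_integral_thickenedIndicator_of_isClosed ν (isClosed_locF K C N)
    (δs := fun n : ℕ => ((n : ℝ) + 1)⁻¹) (fun n => by positivity) (by
      refine tendsto_inv_atTop_zero.comp ?_
      exact tendsto_atTop_add_const_right _ _ tendsto_natCast_atTop_atTop)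
  obtain ⟨n, hn⟩ := (ht.eventually_lt_const hνL).exists
  have hδ : 0 < ((n : ℝ) + 1)⁻¹ := by positivity
  refine ⟨N, m, eF (bE N), fun r => (thickenedIndicator hδ (locF K C N) r : ℝ), ?_, ?_, ?_, ?_⟩
  · exact NNReal.continuous_coe.comp (thickenedIndicator hδ (locF K C N)).continuous
  · intro r
    exact ⟨NNReal.coe_nonneg _, by exact_mod_cast thickenedIndicator_le_one hδ (locF K C N) r⟩
  · intro s hs hmem
    have h1 : s ∈ locEv K C N := bigEv_subset hs hK hmem
    have h2 := thickenedIndicator_one hδ (locF K C N) (mem_locF.2 h1)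
    exact NNReal.coe_eq_one.2 h2
  · have h1 : ∫ r, (thickenedIndicator hδ (locF K C N) r : ℝ) ∂ν =
        ∫ s, (thickenedIndicator hδ (locF K C N) (fun i => s (eF (bE N) i)) : ℝ)
          ∂(indepLaw fun _ => G) := by
      rw [hν, integral_map (measurable_coord _).aemeasurable]
      exact (NNReal.continuous_coe.comp
        (thickenedIndicator hδ (locF K C N)).continuous).aestronglyMeasurable
    rw [← h1]
    exact hn

/-- Convergence in law of environments. -/
theorem bigeodesics_vanish (hG : (G : Measure ℝ) (Set.Iio 0) = 0)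
    (hatom : ∀ x, (G : Measure ℝ) {x} = 0) (μ : ℕ → Measure Weights)
    (hp : ∀ k, IsProbabilityMeasure (μ k)) (hμ : ∀ k, ∀ᵐ s ∂(μ k), ∀ e, 0 ≤ s e)
    (hlim : ConvergesTo μ G) : BigeodesicsVanish μ := by
  intro K
  rw [ENNReal.tendsto_nhds_zero]
  intro ε hε
  obtain ⟨δ, hδ0, hδ⟩ : ∃ δ : ℝ, 0 < δ ∧ ENNReal.ofReal δ ≤ ε := by
    rcases eq_or_ne ε ⊤ with rfl | h
    · exact ⟨1, one_pos, le_top⟩
    · exact ⟨ε.toReal, ENNReal.toReal_pos hε.ne' h, (ENNReal.ofReal_toReal h).le⟩
  obtain ⟨N, m, e, f, hf, hf1, hf2, hf3⟩ := localBound hG hatom K 1 δ hδ0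
  have hB : ∀ r, |f r| ≤ 1 := fun r => by
    rw [abs_of_nonneg (hf1 r).1]
    exact (hf1 r).2
  have h1 := (hlim m e f hf ⟨1, hB⟩).eventually_lt_const hf3
  filter_upwards [h1] with k hk
  have := hp k
  have hint : Integrable (fun s : Weights => f fun i => s (e i)) (μ k) :=
    Integrable.of_bound ((hf.comp (continuous_coord e)).aestronglyMeasurable) 1
      (Eventually.of_forall fun s => by rw [Real.norm_eq_abs]; exact hB _)
  have h2 : (1 : ℝ) * (μ k).real {s : Weights | 1 ≤ f fun i => s (e i)} ≤
      ∫ s, f (fun i => s (e i)) ∂(μ k) :=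
    mul_meas_ge_le_integral_of_nonneg (Eventually.of_forall fun s => (hf1 _).1) hint 1
  have h3 : μ k {s | ∃ v : ℤ → V, IsBigeodesic s v ∧ ∃ i, v i ∈ K} ≤
      μ k {s : Weights | 1 ≤ f fun i => s (e i)} := by
    refine measure_mono_ae ?_
    filter_upwards [hμ k] with s hs h
    obtain ⟨v, hv, i, hi⟩ := h
    exact (hf2 s hs (bi_bigEv hv hi N)).ge
  refine h3.trans (le_trans ?_ hδ)
  rw [one_mul] at h2
  rw [← ENNReal.ofReal_toReal (measure_ne_top (μ k) _)]
  exact ENNReal.ofReal_le_ofReal (h2.trans hk.le)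

theorem nonneg_indepLaw {H : latt.edgeSet → ProbabilityMeasure ℝ}
    (hH : ∀ e, (H e : Measure ℝ) (Set.Iio 0) = 0) : ∀ᵐ s ∂(indepLaw H), ∀ e, 0 ≤ s e := by
  rw [ae_all_iff]
  intro e
  have h1 : ∀ᵐ x ∂((Measure.infinitePi (fun e => (H e : Measure ℝ))).map fun s => s e),
      0 ≤ x := by
    rw [Measure.infinitePi_map_eval, ae_iff]
    have : {a : ℝ | ¬ 0 ≤ a} = Set.Iio 0 := by
      ext a; simp
    rw [this]
    exact hH e
  exact ae_of_ae_map (measurable_pi_apply e).aemeasurable h1

/-- Integrals of functions of finitely many weights. -/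
theorem integral_coord (H : latt.edgeSet → ProbabilityMeasure ℝ) {m : ℕ}
    (e : Fin m → latt.edgeSet) (F : Finset latt.edgeSet) (hF : ∀ i, e i ∈ F)
    {f : (Fin m → ℝ) → ℝ} (hf : Continuous f) :
    ∫ s, f (fun i => s (e i)) ∂(indepLaw H) =
      ∫ r : F → ℝ, f (fun i => r ⟨e i, hF i⟩)
        ∂(ProbabilityMeasure.pi fun a : F => H a : Measure (F → ℝ)) := by
  rw [ProbabilityMeasure.toMeasure_pi]
  have h1 := Measure.infinitePi_map_restrict (μ := fun e => (H e : Measure ℝ)) (I := F)
  rw [← h1, integral_map (Finset.measurable_restrict _).aemeasurable]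
  · rfl
  · refine Continuous.aestronglyMeasurable ?_
    exact hf.comp (continuous_pi fun i => continuous_apply _)

/-- Independent weights with converging laws. -/
theorem bigeodesics_vanish_indep (hG : (G : Measure ℝ) (Set.Iio 0) = 0)
    (hatom : ∀ x, (G : Measure ℝ) {x} = 0)
    (H : ℕ → latt.edgeSet → ProbabilityMeasure ℝ)
    (hH : ∀ k e, (H k e : Measure ℝ) (Set.Iio 0) = 0)
    (hlim : ∀ e, Tendsto (fun k => H k e) atTop (𝓝 G)) :
    BigeodesicsVanish fun k => indepLaw (H k) := by
  classical
  refine bigeodesics_vanish hG hatom (fun k => indepLaw (H k)) (fun k => inferInstance)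
    (fun k => nonneg_indepLaw (hH k)) ?_
  intro m e f hf hB
  obtain ⟨B, hB⟩ := hB
  let F : Finset latt.edgeSet := Finset.univ.image e
  have hF : ∀ i, e i ∈ F := fun i => Finset.mem_image_of_mem e (Finset.mem_univ i)
  simp only [integral_coord _ e F hF hf]
  have h2 := (ProbabilityMeasure.continuous_pi (α := fun _ : F => ℝ)).tendsto fun _ : F => G
  have h3 : Tendsto (fun k => ProbabilityMeasure.pi fun a : F => H k a) atTop
      (𝓝 (ProbabilityMeasure.pi fun _ : F => G)) :=
    h2.comp (tendsto_pi_nhds.2 fun a => hlim a)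
  rw [ProbabilityMeasure.tendsto_iff_forall_integral_tendsto] at h3
  have hc : Continuous fun r : F → ℝ =>
      f fun i => r ⟨e i, hF i⟩ :=
    hf.comp (continuous_pi fun i => continuous_apply _)
  exact h3 (BoundedContinuousFunction.ofNormedAddCommGroup _ hc B fun r => by
    rw [Real.norm_eq_abs]; exact hB _)

/-- Q1 for the i.i.d. environment. -/
theorem none_iid (hG : (G : Measure ℝ) (Set.Iio 0) = 0) (hatom : ∀ x, (G : Measure ℝ) {x} = 0) :
    ∀ᵐ s ∂(indepLaw fun _ => G), ∀ v : ℤ → V, ¬ IsBigeodesic s v :=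
  C.Fin.no_bigeodesics_all (G : Measure ℝ) hG hatom (latt.edgeSet → ℝ)
    (Measure.infinitePi fun _ : latt.edgeSet => (G : Measure ℝ)) (fun e s => s e)
    (fun e => measurable_pi_apply e)
    (fun e => Measure.infinitePi_map_eval (fun _ : latt.edgeSet => (G : Measure ℝ)) e)
    (ProbabilityTheory.iIndepFun_infinitePi (P := fun _ : latt.edgeSet => (G : Measure ℝ))
      (X := fun _ x => x) (fun _ => measurable_id))

end Vale.Agent.P158.H648
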